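import Vale.Agent.P202.Mixed.Graded

/-!
P202: Lech's inequality from the one for the top-dimensional components.
-/

namespace Vale.Agent.P202.Mixed

open IsLocalRing Filter Topology Vale.Agent.P202.Char Vale.Agent.P202.Char.Stage2
open scoped TensorProduct

universe u

variable {R S : Type u} [CommRing R] [CommRing S] [IsLocalRing R] [IsLocalRing S]
  [IsNoetherianRing R] [IsNoetherianRing S] [Algebra R S] [IsLocalHom (algebraMap R S)]
  [Module.Flat R S]

/-- `N ^ D` scaled length of `M / m ^ N M`. -/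
noncomputable def scaled (A : Type u) [CommRing A] [IsLocalRing A] (D : ℕ) (M : Type u)
    [AddCommGroup M] [Module A M] (c N : ℕ) : ℝ :=
  (D.factorial : ℝ) * (samuel A M (N - c) : ℝ) / (N : ℝ) ^ D

omit [IsNoetherianRing R] [IsNoetherianRing S] in
theorem samuel_quotient {A : Type u} [CommRing A] [IsLocalRing A] (I : Ideal A)
    [IsLocalRing (A ⧸ I)] (N : ℕ) :
    samuel A (A ⧸ I) N =
      (Module.length (A ⧸ I) ((A ⧸ I) ⧸ maximalIdeal (A ⧸ I) ^ N)).toNat := by
  have hI : I ≤ maximalIdeal A :=
    le_maximalIdeal (Ideal.Quotient.nontrivial_iff.1 inferInstance)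
  have hmax : (maximalIdeal A).map (Ideal.Quotient.mk I) = maximalIdeal (A ⧸ I) :=
    IsLocalRing.eq_maximalIdeal (Ideal.IsMaximal.map_of_surjective_of_ker_le
      Ideal.Quotient.mk_surjective (Ideal.mk_ker.trans_le hI))
  rw [samuel, ← Module.length_eq_of_surjective (R := A ⧸ I) (S := A)
    (M := (A ⧸ I) ⧸ maximalIdeal (A ⧸ I) ^ N) Ideal.Quotient.mk_surjective]
  refine congrArg ENat.toNat (Submodule.quotEquivOfEq _
    ((maximalIdeal (A ⧸ I) ^ N).restrictScalars A) ?_ ≪≫ₗ
      (Submodule.Quotient.restrictScalarsEquiv A _)).length_eq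
  rw [Ideal.smul_top_eq_map, ← hmax, Ideal.map_pow, Ideal.Quotient.algebraMap_eq]

omit [IsNoetherianRing R] [IsNoetherianRing S] in
theorem samuel_self {A : Type u} [CommRing A] [IsLocalRing A] (N : ℕ) :
    samuel A A N = (Module.length A (A ⧸ maximalIdeal A ^ N)).toNat := by
  refine congrArg ENat.toNat (Submodule.quotEquivOfEq _ _ ?_).length_eq
  rw [smul_eq_mul, Ideal.mul_top]

/-- The dimension of `S / P S`. -/
theorem dim_quotient {d D : ℕ} (hd : ringKrullDim R = d) (hD : ringKrullDim S = D) (P : Ideal R)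
    [P.IsPrime] (hP : ringKrullDim (R ⧸ P) = d)
    [IsLocalRing (R ⧸ P)] [IsLocalRing (S ⧸ P.map (algebraMap R S))]
    [IsLocalHom (algebraMap (R ⧸ P) (S ⧸ P.map (algebraMap R S)))]
    [Module.Flat (R ⧸ P) (S ⧸ P.map (algebraMap R S))] :
    ringKrullDim (S ⧸ P.map (algebraMap R S)) = D := by
  set J := (maximalIdeal R).map (algebraMap R S)
  set PS := P.map (algebraMap R S)
  have : Nontrivial (S ⧸ J) :=
    Ideal.Quotient.nontrivial_iff.2 (map_maximalIdeal_lt_top (algebraMap R S)).ne
  have : IsLocalRing (S ⧸ J) :=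
    IsLocalRing.of_surjective' (Ideal.Quotient.mk J) Ideal.Quotient.mk_surjective
  obtain ⟨r, -, hr, -, -⟩ := exists_multiplicity (S ⧸ J)
  obtain rfl : D = d + r := dim_eq_add hd hD hr
  obtain ⟨D', -, hD', -, -⟩ := exists_multiplicity (S ⧸ PS)
  have hmax : (maximalIdeal R).map (Ideal.Quotient.mk P) = maximalIdeal (R ⧸ P) :=
    IsLocalRing.eq_maximalIdeal (Ideal.IsMaximal.map_of_surjective_of_ker_le
      Ideal.Quotient.mk_surjective
        (Ideal.mk_ker.trans_le (le_maximalIdeal (Ideal.IsPrime.ne_top inferInstance))))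
  have hle : PS ≤ J := Ideal.map_mono (le_maximalIdeal (Ideal.IsPrime.ne_top inferInstance))
  have h1 : (maximalIdeal (R ⧸ P)).map (algebraMap (R ⧸ P) (S ⧸ PS)) =
      J.map (Ideal.Quotient.mk PS) := by
    rw [← hmax, Ideal.map_map, Ideal.map_map]
    exact congrArg (fun φ => Ideal.map φ (maximalIdeal R)) (RingHom.ext fun _ => rfl)
  have hr' : ringKrullDim
      ((S ⧸ PS) ⧸ (maximalIdeal (R ⧸ P)).map (algebraMap (R ⧸ P) (S ⧸ PS))) = r := by
    rw [h1, ringKrullDim_eq_of_ringEquiv (DoubleQuot.quotQuotEquivQuotOfLE hle), hr]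
  rw [hD', dim_eq_add hP hD' hr']

/-- Eventually the scaled lengths of `M` are at most those of `S ⊗ M`. -/
def Dom (S : Type u) [CommRing S] [IsLocalRing S] [Algebra R S] (d D : ℕ) (M : Type u)
    [AddCommGroup M] [Module R M] : Prop :=
  ∀ (c : ℕ) (ε : ℝ), 0 < ε → ∀ᶠ N in atTop,
    scaled R d M 0 N ≤ scaled S D (S ⊗[R] M) c N + ε

theorem dom_quotient {d D : ℕ} (hd : ringKrullDim R = d) (hD : ringKrullDim S = D)
    (P : Ideal R) [P.IsPrime] [IsLocalRing (R ⧸ P)] [IsLocalRing (S ⧸ P.map (algebraMap R S))]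
    [IsLocalHom (algebraMap (R ⧸ P) (S ⧸ P.map (algebraMap R S)))]
    [Module.Flat (R ⧸ P) (S ⧸ P.map (algebraMap R S))]
    (comp : ringKrullDim (R ⧸ P) = d → ∀ a b : ℝ, IsMultiplicity (R ⧸ P) d a →
      IsMultiplicity (S ⧸ P.map (algebraMap R S)) D b → a ≤ b) :
    Dom (R := R) S d D (R ⧸ P) := by
  intro c ε hε
  set PS := P.map (algebraMap R S)
  obtain ⟨d', a, hd', -, ha⟩ := exists_multiplicity (R ⧸ P)
  have hdd : d' ≤ d := by
    have := ringKrullDim_le_of_surjective _ (Ideal.Quotient.mk_surjective (I := P))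
    rw [hd, hd'] at this
    exact_mod_cast this
  have hR : ∀ N, scaled R d (R ⧸ P) 0 N = (d.factorial : ℝ) *
      ((Module.length (R ⧸ P) ((R ⧸ P) ⧸ maximalIdeal (R ⧸ P) ^ N)).toNat : ℝ) / (N : ℝ) ^ d :=
    fun N => by rw [scaled, Nat.sub_zero, samuel_quotient]
  rcases hdd.lt_or_eq with hlt | rfl
  · obtain ⟨L, hL⟩ := Exist.exists_bound hd'
    have h0 : Tendsto (fun N : ℕ => scaled R d (R ⧸ P) 0 N) atTop (𝓝 0) := by
      obtain ⟨k, rfl⟩ := Nat.exists_eq_add_of_lt hlt
      have h1 : Tendsto (fun N : ℕ => ((d' + k + 1).factorial : ℝ) * L / (N : ℝ) ^ (k + 1))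
          atTop (𝓝 0) :=
        tendsto_const_nhds.div_atTop
          ((tendsto_pow_atTop (by omega)).comp tendsto_natCast_atTop_atTop)
      refine squeeze_zero' (Eventually.of_forall fun N => by rw [hR]; positivity) ?_ h1
      filter_upwards [eventually_ge_atTop 1] with N hN
      have hN0 : (0 : ℝ) < N := by exact_mod_cast hN
      have h2 : ((Module.length (R ⧸ P) ((R ⧸ P) ⧸ maximalIdeal (R ⧸ P) ^ N)).toNat : ℝ) ≤
          L * (N : ℝ) ^ d' := by exact_mod_cast hL N
      rw [hR, show d' + k + 1 = d' + (k + 1) by ring, pow_add,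
        div_le_div_iff₀ (by positivity) (by positivity)]
      calc _ ≤ ((d' + (k + 1)).factorial : ℝ) * (L * (N : ℝ) ^ d') * (N : ℝ) ^ (k + 1) := by gcongr
        _ = _ := by ring
    filter_upwards [h0.eventually (eventually_le_nhds hε)] with N hN
    have : 0 ≤ scaled S D (S ⊗[R] (R ⧸ P)) c N := by rw [scaled]; positivity
    linarith
  · have hDP := dim_quotient hd hD P hd'
    obtain ⟨b, -, hb⟩ := exists_multiplicity_of_dim (S ⧸ PS) hDP
    have hab := comp hd' a b ha hb
    have hS : Tendsto (fun N : ℕ => scaled S D (S ⊗[R] (R ⧸ P)) c N) atTop (𝓝 b) := by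
      have h1 := hb.comp (tendsto_sub_atTop_nat c)
      have h2 : Tendsto (fun N : ℕ => (((N - c : ℕ) : ℝ) / (N : ℝ)) ^ D) atTop (𝓝 1) := by
        have : Tendsto (fun N : ℕ => ((N - c : ℕ) : ℝ) / (N : ℝ)) atTop (𝓝 1) := by
          have h3 : Tendsto (fun N : ℕ => (1 : ℝ) - (c : ℝ) / (N : ℝ)) atTop (𝓝 1) := by
            simpa using tendsto_const_nhds.sub
              (tendsto_natCast_atTop_atTop.const_div_atTop (c : ℝ))
          refine h3.congr' ?_
          filter_upwards [eventually_ge_atTop (c + 1)] with N hN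
          have hN0 : (N : ℝ) ≠ 0 := by exact_mod_cast (show N ≠ 0 by omega)
          rw [Nat.cast_sub (by omega), sub_div, div_self hN0]
        simpa using this.pow D
      have h3 := h1.mul h2
      rw [mul_one] at h3
      refine h3.congr' ?_
      filter_upwards [eventually_ge_atTop (c + 1)] with N hN
      have hN0 : (N : ℝ) ≠ 0 := by exact_mod_cast (show N ≠ 0 by omega)
      have hNc : ((N - c : ℕ) : ℝ) ≠ 0 := by exact_mod_cast (show N - c ≠ 0 by omega)
      have he : samuel S (S ⊗[R] (R ⧸ P)) (N - c) = samuel S (S ⧸ PS) (N - c) :=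
        samuel_congr (Algebra.TensorProduct.quotIdealMapEquivTensorQuot S P).toLinearEquiv.symm _
      simp only [Function.comp_apply, scaled]
      rw [he, samuel_quotient, div_pow]
      field_simp
    have h0 : Tendsto (fun N : ℕ => scaled R d' (R ⧸ P) 0 N) atTop (𝓝 a) := by
      simp_rw [hR]
      exact ha
    filter_upwards [h0.eventually (eventually_le_nhds (show a < a + ε / 2 by linarith)),
      hS.eventually (eventually_ge_nhds (show b - ε / 2 < b by linarith))] with N h1 h2
    linarith

/-- Lech's inequality from the one for the components of maximal dimension. -/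
theorem lech_of_components {d D : ℕ} (hd : ringKrullDim R = d) (hD : ringKrullDim S = D)
    (comp : ∀ (P : Ideal R) [P.IsPrime] [IsLocalRing (R ⧸ P)]
      [IsLocalRing (S ⧸ P.map (algebraMap R S))]
      [IsLocalHom (algebraMap (R ⧸ P) (S ⧸ P.map (algebraMap R S)))]
      [Module.Flat (R ⧸ P) (S ⧸ P.map (algebraMap R S))],
      ringKrullDim (R ⧸ P) = d → ∀ a b : ℝ, IsMultiplicity (R ⧸ P) d a →
        IsMultiplicity (S ⧸ P.map (algebraMap R S)) D b → a ≤ b)
    {e e' : ℝ} (he : IsMultiplicity R d e) (he' : IsMultiplicity S D e') : e ≤ e' := by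
  have main : ∀ (M : Type u) [AddCommGroup M] [Module R M] [Module.Finite R M],
      Dom (R := R) S d D M := by
    intro M _ _ hM
    induction hM using IsNoetherianRing.induction_on_isQuotientEquivQuotientPrime R with
    | subsingleton N =>
      intro c ε hε
      refine Eventually.of_forall fun n => ?_
      have : scaled R d N 0 n = 0 := by simp [scaled, samuel]
      have : 0 ≤ scaled S D (S ⊗[R] N) c n := by rw [scaled]; positivity
      linarith
    | quotient N p f =>
      have := p.2
      set P := p.1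
      set PS := P.map (algebraMap R S)
      have hPm : P ≤ maximalIdeal R := le_maximalIdeal (Ideal.IsPrime.ne_top inferInstance)
      have hPS : PS ≤ maximalIdeal S := (Ideal.map_mono hPm).trans map_le
      have : Nontrivial (R ⧸ P) := Ideal.Quotient.nontrivial_iff.2 (Ideal.IsPrime.ne_top inferInstance)
      have : IsLocalRing (R ⧸ P) :=
        IsLocalRing.of_surjective' (Ideal.Quotient.mk P) Ideal.Quotient.mk_surjective
      have : Nontrivial (S ⧸ PS) :=
        Ideal.Quotient.nontrivial_iff.2 (ne_top_of_le_ne_top (maximalIdeal.isMaximal S).ne_top hPS)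
      have : IsLocalRing (S ⧸ PS) :=
        IsLocalRing.of_surjective' (Ideal.Quotient.mk PS) Ideal.Quotient.mk_surjective
      have : IsLocalHom (Ideal.Quotient.mk PS) :=
        IsLocalHom.of_surjective _ Ideal.Quotient.mk_surjective
      have : IsLocalHom (algebraMap (R ⧸ P) (S ⧸ PS)) := by
        refine ⟨fun x hx => ?_⟩
        obtain ⟨x, rfl⟩ := Ideal.Quotient.mk_surjective x
        have h1 : IsUnit (Ideal.Quotient.mk PS (algebraMap R S x)) := hx
        exact ((isUnit_map_iff (algebraMap R S) x).1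
          (isUnit_of_map_unit (Ideal.Quotient.mk PS) _ h1)).map _
      have : Module.Flat (R ⧸ P) (S ⧸ PS) := Module.Flat.of_linearEquiv
        (Algebra.TensorProduct.quotIdealMapEquivQuotTensor S P).toLinearEquiv
      intro c ε hε
      filter_upwards [dom_quotient hd hD P (comp P) c ε hε] with n hn
      have h1 : scaled R d N 0 n = scaled R d (R ⧸ P) 0 n := by
        rw [scaled, scaled, samuel_congr f]
      have h2 : scaled S D (S ⊗[R] N) c n = scaled S D (S ⊗[R] (R ⧸ P)) c n := by
        rw [scaled, scaled, samuel_congr (f.baseChange R S N (R ⧸ P))]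
      linarith
    | exact N₁ N₂ N₃ f g hf hg hex h₁ h₃ =>
      intro c ε hε
      obtain ⟨c₀, hc₀⟩ := exists_add_le_samuel (A := S) (f.baseChange S) (g.baseChange S)
        (Module.Flat.lTensor_preserves_injective_linearMap f hf)
        (LinearMap.lTensor_surjective S hg) (lTensor_exact S hex hg)
      filter_upwards [h₁ (c + c₀) (ε / 2) (by positivity), h₃ c (ε / 2) (by positivity)]
        with n hn₁ hn₃
      have hR : scaled R d N₂ 0 n ≤ scaled R d N₁ 0 n + scaled R d N₃ 0 n := by
        simp only [scaled, Nat.sub_zero, ← add_div, ← mul_add]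
        gcongr
        exact_mod_cast samuel_le_add f g hg hex n
      have hS : scaled S D (S ⊗[R] N₁) (c + c₀) n + scaled S D (S ⊗[R] N₃) c n ≤
          scaled S D (S ⊗[R] N₂) c n := by
        simp only [scaled, ← add_div, ← mul_add, Nat.sub_add_eq]
        gcongr
        exact_mod_cast hc₀ (n - c)
      linarith
  refine le_of_forall_pos_le_add fun ε hε => ?_
  have h1 := main R 0 ε hε
  refine le_of_tendsto_of_tendsto he (he'.add_const ε) ?_
  filter_upwards [h1] with N hN
  have h2 : samuel S (S ⊗[R] R) N = samuel S S N :=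
    samuel_congr (TensorProduct.AlgebraTensorModule.rid R S S) N
  simpa [scaled, h2, samuel_self] using hN

end Vale.Agent.P202.Mixed
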