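import Vale.Agent.P202.Char.KoszulSmall
import Vale.Agent.P202.Char.Existence
import Vale.Agent.P202.Char.Stage2Dim

/-!
P202: comparison of multiplicities along a prime filtration.
-/

namespace Vale.Agent.P202.Mixed

open IsLocalRing Filter Topology Vale.Agent.P202.Char
open scoped TensorProduct

universe u v

/-- The length of `M / a ^ N M`. -/
noncomputable def samuel (A : Type u) [CommRing A] [IsLocalRing A] (M : Type v) [AddCommGroup M]
    [Module A M] (N : ℕ) : ℕ :=
  (Module.length A (M ⧸ maximalIdeal A ^ N • (⊤ : Submodule A M))).toNat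

variable {A : Type u} [CommRing A] [IsLocalRing A]

theorem samuel_ne_top [IsNoetherianRing A] (M : Type u) [AddCommGroup M] [Module A M]
    [Module.Finite A M] (N : ℕ) :
    Module.length A (M ⧸ maximalIdeal A ^ N • (⊤ : Submodule A M)) ≠ ⊤ := by
  refine length_ne_top_of_killed (N := N) fun r hr m => ?_
  obtain ⟨m, rfl⟩ := Submodule.mkQ_surjective _ m
  rw [← map_smul, Submodule.mkQ_apply, Submodule.Quotient.mk_eq_zero]
  exact Submodule.smul_mem_smul hr trivial

theorem samuel_congr {M M' : Type u} [AddCommGroup M] [Module A M] [AddCommGroup M'] [Module A M']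
    (e : M ≃ₗ[A] M') (N : ℕ) : samuel A M N = samuel A M' N := by
  refine congrArg ENat.toNat (Submodule.Quotient.equiv _ _ e ?_).length_eq
  rw [Submodule.map_smul'', Submodule.map_top, LinearEquiv.range]

variable {M₁ M₂ M₃ : Type u} [AddCommGroup M₁] [Module A M₁] [AddCommGroup M₂] [Module A M₂]
  [AddCommGroup M₃] [Module A M₃] (f : M₁ →ₗ[A] M₂) (g : M₂ →ₗ[A] M₃)

theorem length_split (hg : Function.Surjective g) (hex : Function.Exact f g) (J : Ideal A) :
    Module.length A (M₂ ⧸ J • (⊤ : Submodule A M₂)) =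
      Module.length A (M₁ ⧸ (J • (⊤ : Submodule A M₂)).comap f) +
        Module.length A (M₃ ⧸ J • (⊤ : Submodule A M₃)) := by
  refine Module.length_eq_add_of_exact (Submodule.mapQ _ _ f le_rfl)
    (Submodule.mapQ _ _ g (Submodule.smul_le.2 fun r hr m _ => ?_)) ?_ ?_ ?_
  · rw [Submodule.mem_comap, map_smul]
    exact Submodule.smul_mem_smul hr trivial
  · rw [← LinearMap.ker_eq_bot, Submodule.eq_bot_iff]
    intro x hx
    obtain ⟨x, rfl⟩ := Submodule.mkQ_surjective _ x
    exact (Submodule.Quotient.mk_eq_zero _).2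
      (Submodule.mem_comap.2 ((Submodule.Quotient.mk_eq_zero _).1 hx))
  · intro y
    obtain ⟨y, rfl⟩ := Submodule.mkQ_surjective _ y
    obtain ⟨x, rfl⟩ := hg y
    exact ⟨Submodule.Quotient.mk x, rfl⟩
  · intro y
    obtain ⟨y, rfl⟩ := Submodule.mkQ_surjective _ y
    refine ⟨fun h => ?_, ?_⟩
    · have h1 : g y ∈ (J • (⊤ : Submodule A M₂)).map g := by
        rw [Submodule.map_smul'', Submodule.map_top, LinearMap.range_eq_top.2 hg]
        exact (Submodule.Quotient.mk_eq_zero _).1 h
      obtain ⟨z, hz, hzy⟩ := h1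
      obtain ⟨x, hx⟩ := (hex (y - z)).1 (by rw [map_sub, hzy, sub_self])
      refine ⟨Submodule.Quotient.mk x, (Submodule.Quotient.eq _).2 ?_⟩
      rw [hx, show y - z - y = -z by abel]
      exact neg_mem hz
    · rintro ⟨x, hx⟩
      obtain ⟨x, rfl⟩ := Submodule.mkQ_surjective _ x
      rw [← hx]
      refine (Submodule.Quotient.mk_eq_zero _).2 ?_
      rw [hex.apply_apply_eq_zero]
      exact Submodule.zero_mem _

variable [IsNoetherianRing A] [Module.Finite A M₁] [Module.Finite A M₂] [Module.Finite A M₃]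

theorem samuel_le_add (hg : Function.Surjective g) (hex : Function.Exact f g) (N : ℕ) :
    samuel A M₂ N ≤ samuel A M₁ N + samuel A M₃ N := by
  rw [samuel, samuel, samuel, ← ENat.toNat_add (samuel_ne_top M₁ N) (samuel_ne_top M₃ N)]
  refine ENat.toNat_le_toNat ?_ (WithTop.add_ne_top.2 ⟨samuel_ne_top M₁ N, samuel_ne_top M₃ N⟩)
  rw [length_split f g hg hex]
  refine add_le_add (Module.length_le_of_surjective _ (Submodule.factor_surjective ?_)) le_rfl
  rw [← Submodule.map_le_iff_le_comap, Submodule.map_smul'']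
  exact Submodule.smul_mono le_rfl le_top

omit [Module.Finite A M₁] in
theorem exists_add_le_samuel (hf : Function.Injective f) (hg : Function.Surjective g)
    (hex : Function.Exact f g) :
    ∃ c : ℕ, ∀ N, samuel A M₁ (N - c) + samuel A M₃ N ≤ samuel A M₂ N := by
  have : IsNoetherian A M₂ := inferInstance
  have : Module.Finite A M₁ := Module.Finite.of_injective f hf
  obtain ⟨k, hk⟩ := Ideal.exists_pow_inf_eq_pow_smul (maximalIdeal A) (LinearMap.range f)
  refine ⟨k, fun N => ?_⟩
  rw [samuel, samuel, samuel, ← ENat.toNat_add (samuel_ne_top M₁ _) (samuel_ne_top M₃ N)]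
  refine ENat.toNat_le_toNat ?_ (samuel_ne_top M₂ N)
  rw [length_split f g hg hex]
  refine add_le_add (Module.length_le_of_surjective _
    (Submodule.factor_surjective ?_)) le_rfl
  intro x hx
  rcases le_or_gt k N with hN | hN
  · have h1 : f x ∈ maximalIdeal A ^ N • (⊤ : Submodule A M₂) ⊓ LinearMap.range f :=
      ⟨hx, ⟨x, rfl⟩⟩
    rw [hk N hN] at h1
    have h2 := Submodule.smul_mono le_rfl inf_le_right h1
    rw [← Submodule.map_top f, ← Submodule.map_smul''] at h2
    obtain ⟨y, hy, hyx⟩ := h2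
    exact hf hyx ▸ hy
  · rw [Nat.sub_eq_zero_of_le hN.le, pow_zero, Ideal.one_eq_top, Submodule.top_smul]
    exact Submodule.mem_top

end Vale.Agent.P202.Mixed
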