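import Vale.Agent.P202.Mixed.Components
import Vale.Agent.P202.Ext.Lech
import Vale.Agent.P202.Zero.General
import Vale.Agent.P202.Char.Main

/-!
P202: Lech's inequality when every top-dimensional component of the base has equal characteristic,
and a bound through the reduction modulo the residue characteristic in the other case.
-/

namespace Vale.Agent.P202.Mixed

open IsLocalRing Filter Topology Vale.Agent.P202.Char Vale.Agent.P202.Char.Stage2

universe u

/-- Lech's inequality in equal characteristic. -/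
theorem lech_equal (R S : Type u) [CommRing R] [CommRing S] [IsLocalRing R] [IsLocalRing S]
    [IsNoetherianRing R] [IsNoetherianRing S] [Algebra R S] [IsLocalHom (algebraMap R S)]
    [Module.Flat R S] (hp : ((ringChar (ResidueField R) : ℕ) : R) = 0) (d D : ℕ)
    (hd : ringKrullDim R = d) (hD : ringKrullDim S = D) (e e' : ℝ)
    (he : IsMultiplicity R d e) (he' : IsMultiplicity S D e') : e ≤ e' := by
  rcases CharP.char_is_prime_or_zero (ResidueField R) (ringChar (ResidueField R)) with h | h
  · have : Fact (ringChar (ResidueField R)).Prime := ⟨h⟩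
    have : CharP R (ringChar (ResidueField R)) := (CharP.charP_iff_prime_eq_zero h).2 hp
    obtain ⟨d₀, D₀, e₀, e₀', hd₀, hD₀, -, he₀, he₀', hle⟩ :=
      Ext.lech_char_p_all (ringChar (ResidueField R)) R S
    obtain rfl : d₀ = d := by exact_mod_cast hd₀.symm.trans hd
    obtain rfl : D₀ = D := by exact_mod_cast hD₀.symm.trans hD
    rwa [tendsto_nhds_unique he he₀, tendsto_nhds_unique he' he₀']
  · have : CharP (ResidueField R) 0 := h ▸ ringChar.charP (ResidueField R)
    have : CharZero (ResidueField R) := CharP.charP_to_charZero _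
    exact Zero.lech_general (fun p _ R S => Char.lech_free p R S) R S d D hd hD e e' he he'

/-- The characteristic of the residue field of a quotient. -/
theorem ringChar_quotient {R : Type u} [CommRing R] [IsLocalRing R] (I : Ideal R)
    [IsLocalRing (R ⧸ I)] : ringChar (ResidueField (R ⧸ I)) = ringChar (ResidueField R) := by
  have : IsLocalHom (Ideal.Quotient.mk I) :=
    IsLocalHom.of_surjective _ Ideal.Quotient.mk_surjective
  have := charP_of_injective_ringHom
    (ResidueField.map (Ideal.Quotient.mk I)).injective (ringChar (ResidueField R))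
  exact ringChar.eq _ _

/-- Lech's inequality when all top-dimensional components have equal characteristic. -/
theorem lech_top_equal (R S : Type u) [CommRing R] [CommRing S] [IsLocalRing R] [IsLocalRing S]
    [IsNoetherianRing R] [IsNoetherianRing S] [Algebra R S] [IsLocalHom (algebraMap R S)]
    [Module.Flat R S] {d D : ℕ} (hd : ringKrullDim R = d) (hD : ringKrullDim S = D)
    (top : ∀ P : Ideal R, P.IsPrime → ringKrullDim (R ⧸ P) = d →
      ((ringChar (ResidueField R) : ℕ) : R) ∈ P)
    {e e' : ℝ} (he : IsMultiplicity R d e) (he' : IsMultiplicity S D e') : e ≤ e' := by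
  refine lech_of_components hd hD (fun P _ _ _ _ _ hP a b ha hb => ?_) he he'
  refine lech_equal (R ⧸ P) (S ⧸ P.map (algebraMap R S)) ?_ d D hP (dim_quotient hd hD P hP) a b
    ha hb
  rw [ringChar_quotient P, ← map_natCast (Ideal.Quotient.mk P)]
  exact Ideal.Quotient.eq_zero_iff_mem.2 (top P inferInstance hP)

/-- `a e(R) ≤ e(R / y)` for `y` in `m ^ a` cutting down the dimension. -/
theorem mul_le_quotient {R : Type u} [CommRing R] [IsLocalRing R] [IsNoetherianRing R] {n a : ℕ}
    {y : R} (hy : y ∈ maximalIdeal R ^ a) [IsLocalRing (R ⧸ Ideal.span {y})]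
    {e b : ℝ} (he : IsMultiplicity R (n + 1) e)
    (hb : IsMultiplicity (R ⧸ Ideal.span {y}) n b) : (a : ℝ) * e ≤ b := by
  rcases Nat.eq_zero_or_pos a with rfl | ha
  · rw [Nat.cast_zero, zero_mul]
    exact mult_nonneg hb
  have ha0 : (0 : ℝ) < a := by exact_mod_cast ha
  set f : ℕ → ℝ := fun N => (samuel R R N : ℝ)
  set g : ℕ → ℝ := fun N => (samuel R (R ⧸ Ideal.span {y}) N : ℝ)
  have hstep : ∀ N, f (N + a) ≤ f N + g (N + a) := by
    intro N
    simp only [f, g]
    rw [← Nat.cast_add, Nat.cast_le]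
    set l : R →ₗ[R] R := LinearMap.mulLeft R y
    have hex : Function.Exact l (Submodule.mkQ (Ideal.span {y})) := by
      intro x
      rw [Submodule.mkQ_apply, Submodule.Quotient.mk_eq_zero, Ideal.mem_span_singleton]
      exact ⟨fun ⟨c, hc⟩ => ⟨c, hc.symm⟩, fun ⟨c, hc⟩ => ⟨c, hc.symm⟩⟩
    rw [samuel, samuel, samuel,
      ← ENat.toNat_add (samuel_ne_top R N) (samuel_ne_top _ (N + a))]
    refine ENat.toNat_le_toNat ?_
      (WithTop.add_ne_top.2 ⟨samuel_ne_top R N, samuel_ne_top _ (N + a)⟩)
    rw [length_split l _ (Submodule.mkQ_surjective _) hex]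
    refine add_le_add (Module.length_le_of_surjective _
      (Submodule.factor_surjective ?_)) le_rfl
    intro x hx
    rw [Submodule.mem_comap]
    change y * x ∈ _
    rw [smul_eq_mul, Ideal.mul_top] at hx ⊢
    rw [add_comm, pow_add]
    exact Ideal.mul_mem_mul hy hx
  refine le_of_forall_pos_le_add fun ε hε => ?_
  have hb0 := mult_nonneg hb
  have hg : Tendsto (fun N : ℕ => (n.factorial : ℝ) * g N / (N : ℝ) ^ n) atTop (𝓝 b) :=
    hb.congr fun N => by simp only [g, samuel_quotient]
  obtain ⟨M₀, hM₀⟩ := eventually_atTop.1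
    (hg.eventually (eventually_le_nhds (show b < b + ε by linarith)))
  set c : ℝ := (b + ε) / (((n + 1).factorial : ℝ) * a) with hc
  have hc0 : 0 ≤ c := by rw [hc]; positivity
  set h : ℕ → ℝ := fun M => c * ((M : ℝ) + a) ^ (n + 1)
  have hbound : ∀ k : ℕ, f (M₀ + 1 + k * a) ≤ f (M₀ + 1) + h (M₀ + 1 + k * a) := by
    intro k
    induction k with
    | zero =>
      simp only [zero_mul, add_zero, le_add_iff_nonneg_right, h]
      positivity
    | succ k ih =>
      set M := M₀ + 1 + k * a
      rw [show M₀ + 1 + (k + 1) * a = M + a by ring]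
      refine (hstep M).trans ?_
      set x : ℝ := ((M + a : ℕ) : ℝ) with hx
      have hx0 : 0 < x := by rw [hx]; exact_mod_cast Nat.add_pos_right M ha
      have hg1 : g (M + a) ≤ (b + ε) / (n.factorial : ℝ) * x ^ n := by
        have h1 := hM₀ (M + a) (by omega)
        rw [div_le_iff₀ (by positivity)] at h1
        rw [div_mul_eq_mul_div, le_div_iff₀ (by positivity), mul_comm (g _)]
        exact h1
      have hconv : x ^ (n + 1) + ((n + 1 : ℕ) : ℝ) * a * x ^ n ≤ (x + a) ^ (n + 1) := by
        have h1 := one_add_mul_le_pow (show (-2 : ℝ) ≤ a / x by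
          have : (0 : ℝ) ≤ a / x := by positivity
          linarith) (n + 1)
        have h2 := mul_le_mul_of_nonneg_left h1 (pow_nonneg hx0.le (n + 1))
        rw [← mul_pow, mul_add, mul_one, mul_add, mul_one, mul_div_cancel₀ _ hx0.ne'] at h2
        refine le_trans (le_of_eq ?_) h2
        field_simp
        ring
      have hh : g (M + a) + h M ≤ h (M + a) := by
        simp only [h]
        rw [show (M : ℝ) + a = x by rw [hx]; push_cast; ring]
        have hn : c * (((n + 1 : ℕ) : ℝ) * a * x ^ n) = (b + ε) / (n.factorial : ℝ) * x ^ n := by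
          rw [hc, Nat.factorial_succ]
          push_cast
          field_simp
        have := mul_le_mul_of_nonneg_left hconv hc0
        rw [mul_add, hn] at this
        rw [← hx]
        linarith
      linarith [ih]
  have hsub : Tendsto (fun k : ℕ => M₀ + 1 + k * a) atTop atTop :=
    tendsto_atTop_mono (fun k => (Nat.le_mul_of_pos_right k ha).trans (Nat.le_add_left _ _))
      tendsto_id
  have hf : Tendsto (fun N : ℕ => ((n + 1).factorial : ℝ) * f N / (N : ℝ) ^ (n + 1)) atTop (𝓝 e) :=
    he.congr fun N => by simp only [f, samuel_self]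
  have hrhs : Tendsto (fun N : ℕ => ((n + 1).factorial : ℝ) * (f (M₀ + 1) + h N) / (N : ℝ) ^ (n + 1))
      atTop (𝓝 ((b + ε) / a)) := by
    have h1 : Tendsto (fun N : ℕ => ((n + 1).factorial : ℝ) * f (M₀ + 1) / (N : ℝ) ^ (n + 1))
        atTop (𝓝 0) :=
      tendsto_const_nhds.div_atTop
        ((tendsto_pow_atTop (Nat.succ_ne_zero n)).comp tendsto_natCast_atTop_atTop)
    have h2 : Tendsto (fun N : ℕ => ((n + 1).factorial : ℝ) * c *
        (1 + (a : ℝ) / (N : ℝ)) ^ (n + 1)) atTop (𝓝 ((b + ε) / a)) := by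
      have h3 : Tendsto (fun N : ℕ => (1 : ℝ) + (a : ℝ) / (N : ℝ)) atTop (𝓝 1) := by
        simpa using tendsto_const_nhds.add
          (tendsto_natCast_atTop_atTop.const_div_atTop (a : ℝ))
      have h4 := (h3.pow (n + 1)).const_mul (((n + 1).factorial : ℝ) * c)
      rw [one_pow, mul_one] at h4
      convert h4 using 2
      rw [hc]
      field_simp
    have h5 := h1.add h2
    rw [zero_add] at h5
    refine h5.congr' ?_
    filter_upwards [eventually_ge_atTop 1] with N hN
    have hN0 : (N : ℝ) ≠ 0 := by exact_mod_cast (show N ≠ 0 by omega)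
    simp only [h]
    rw [one_add_div hN0, div_pow]
    field_simp
  have key : e ≤ (b + ε) / a := le_of_tendsto_of_tendsto' (hf.comp hsub) (hrhs.comp hsub) fun k => by
    simp only [Function.comp_apply]
    gcongr
    exact hbound k
  rw [le_div_iff₀ ha0] at key
  linarith

/-- The bound through the reduction modulo the residue characteristic. -/
theorem mul_le_mod_char (R S : Type u) [CommRing R] [CommRing S] [IsLocalRing R] [IsLocalRing S]
    [IsNoetherianRing R] [IsNoetherianRing S] [Algebra R S] [IsLocalHom (algebraMap R S)]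
    [Module.Flat R S] {n r a : ℕ} (p : ℕ) [CharP (ResidueField R) p]
    (hd : ringKrullDim R = (n + 1 : ℕ)) (hD : ringKrullDim S = (n + 1 + r : ℕ))
    (hdp : ringKrullDim (R ⧸ Ideal.span {(p : R)}) = n)
    (hpa : (p : R) ∈ maximalIdeal R ^ a) {e : ℝ} (he : IsMultiplicity R (n + 1) e)
    [IsLocalRing (S ⧸ Ideal.span {(p : S)})] :
    ringKrullDim (S ⧸ Ideal.span {(p : S)}) = (n + r : ℕ) ∧
      ∃ b : ℝ, IsMultiplicity (S ⧸ Ideal.span {(p : S)}) (n + r) b ∧ (a : ℝ) * e ≤ b := by
  set I := Ideal.span {(p : R)}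
  have hI : I ≤ maximalIdeal R := by
    rw [Ideal.span_le, Set.singleton_subset_iff, SetLike.mem_coe, ← residue_eq_zero_iff,
      map_natCast, CharP.cast_eq_zero]
  set PS := I.map (algebraMap R S)
  have hPSeq : PS = Ideal.span {(p : S)} := by
    simp [PS, I, Ideal.map_span]
  have hPS : PS ≤ maximalIdeal S := (Ideal.map_mono hI).trans map_le
  have : Nontrivial (R ⧸ I) :=
    Ideal.Quotient.nontrivial_iff.2 (ne_top_of_le_ne_top (maximalIdeal.isMaximal R).ne_top hI)
  have : IsLocalRing (R ⧸ I) :=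
    IsLocalRing.of_surjective' (Ideal.Quotient.mk I) Ideal.Quotient.mk_surjective
  have : Nontrivial (S ⧸ PS) :=
    Ideal.Quotient.nontrivial_iff.2 (ne_top_of_le_ne_top (maximalIdeal.isMaximal S).ne_top hPS)
  have : IsLocalRing (S ⧸ PS) :=
    IsLocalRing.of_surjective' (Ideal.Quotient.mk PS) Ideal.Quotient.mk_surjective
  have : IsLocalHom (Ideal.Quotient.mk PS) :=
    IsLocalHom.of_surjective _ Ideal.Quotient.mk_surjective
  have : IsLocalHom (algebraMap (R ⧸ I) (S ⧸ PS)) := by
    refine ⟨fun x hx => ?_⟩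
    obtain ⟨x, rfl⟩ := Ideal.Quotient.mk_surjective x
    have h1 : IsUnit (Ideal.Quotient.mk PS (algebraMap R S x)) := hx
    exact ((isUnit_map_iff (algebraMap R S) x).1
      (isUnit_of_map_unit (Ideal.Quotient.mk PS) _ h1)).map _
  have : Module.Flat (R ⧸ I) (S ⧸ PS) := Module.Flat.of_linearEquiv
    (Algebra.TensorProduct.quotIdealMapEquivQuotTensor S I).toLinearEquiv
  obtain ⟨bR, -, hbR⟩ := exists_multiplicity_of_dim (R ⧸ I) hdp
  obtain ⟨D', bS, hD', -, hbS⟩ := exists_multiplicity (S ⧸ PS)
  set J := (maximalIdeal R).map (algebraMap R S)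
  have : Nontrivial (S ⧸ J) :=
    Ideal.Quotient.nontrivial_iff.2 (map_maximalIdeal_lt_top (algebraMap R S)).ne
  have : IsLocalRing (S ⧸ J) :=
    IsLocalRing.of_surjective' (Ideal.Quotient.mk J) Ideal.Quotient.mk_surjective
  obtain ⟨r', -, hr, -, -⟩ := exists_multiplicity (S ⧸ J)
  obtain rfl : r = r' := by have := dim_eq_add hd hD hr; omega
  have hle : PS ≤ J := Ideal.map_mono hI
  have hmax : (maximalIdeal R).map (Ideal.Quotient.mk I) = maximalIdeal (R ⧸ I) :=
    IsLocalRing.eq_maximalIdeal (Ideal.IsMaximal.map_of_surjective_of_ker_le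
      Ideal.Quotient.mk_surjective (Ideal.mk_ker.trans_le hI))
  have h1 : (maximalIdeal (R ⧸ I)).map (algebraMap (R ⧸ I) (S ⧸ PS)) =
      J.map (Ideal.Quotient.mk PS) := by
    rw [← hmax, Ideal.map_map, Ideal.map_map]
    exact congrArg (fun φ => Ideal.map φ (maximalIdeal R)) (RingHom.ext fun _ => rfl)
  have hr' : ringKrullDim
      ((S ⧸ PS) ⧸ (maximalIdeal (R ⧸ I)).map (algebraMap (R ⧸ I) (S ⧸ PS))) = r := by
    rw [h1, ringKrullDim_eq_of_ringEquiv (DoubleQuot.quotQuotEquivQuotOfLE hle), hr]
  obtain rfl : D' = n + r := dim_eq_add hdp hD' hr'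
  have hle' : bR ≤ bS := lech_equal (R ⧸ I) (S ⧸ PS) (by
    rw [ringChar_quotient I, ringChar.eq (ResidueField R) p,
      ← map_natCast (Ideal.Quotient.mk I)]
    exact Ideal.Quotient.eq_zero_iff_mem.2 (Ideal.mem_span_singleton_self _))
    n (n + r) hdp hD' bR bS hbR hbS
  have key := (mul_le_quotient hpa he hbR).trans hle'
  have gen : ∀ Q : Ideal S, PS = Q → ∀ [IsLocalRing (S ⧸ Q)],
      ringKrullDim (S ⧸ Q) = (n + r : ℕ) ∧
        ∃ b : ℝ, IsMultiplicity (S ⧸ Q) (n + r) b ∧ (a : ℝ) * e ≤ b := by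
    rintro Q rfl _
    exact ⟨hD', bS, hbS, key⟩
  exact gen _ hPSeq

end Vale.Agent.P202.Mixed
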